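import Vale.Agent.P321.R3.H614.IterateG

/-! # Iteration bookkeeping with constants uniform in the retention probability `p` -/

namespace Vale.Agent.P321.R3.H94

open Vale.Agent.P321.R3.H614.G

variable {c V : ℝ}

theorem exists_stepsU (n : ℕ) (hn : 2 ≤ n) :
    ∃ K : ℕ, n < 2 ^ (2 ^ K) ∧ (2 : ℝ) ^ K ≤ 6 * Real.log n := by
  have hnR : (2 : ℝ) ≤ n := by exact_mod_cast hn
  have hlogn1 : 0.69 ≤ Real.log n := by
    have h1 : Real.log 2 ≤ Real.log n := Real.log_le_log (by norm_num) hnR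
    linarith [Real.log_two_gt_d9]
  set ℓ : ℕ := Nat.log 2 n + 1 with hℓ
  set K : ℕ := Nat.clog 2 ℓ with hK
  have hnℓ : n < 2 ^ ℓ := Nat.lt_pow_succ_log_self (by norm_num) n
  have hℓK : ℓ ≤ 2 ^ K := Nat.le_pow_clog (by norm_num) ℓ
  have hℓ2 : 2 ≤ ℓ := by
    have : 1 ≤ Nat.log 2 n := Nat.log_pos (by norm_num) (by omega)
    omega
  have hKℓ : 2 ^ K < 2 * ℓ := by
    have h1 : 2 ^ (K - 1) < ℓ := by
      rw [hK]
      exact Nat.pow_pred_clog_lt_self (by norm_num) (by omega)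
    have h2 : 1 ≤ K := Nat.clog_pos (by norm_num) hℓ2
    have h3 : 2 ^ K = 2 ^ (K - 1) * 2 := by
      rw [← pow_succ]; congr 1; omega
    omega
  refine ⟨K, hnℓ.trans_le (Nat.pow_le_pow_right (by norm_num) hℓK), ?_⟩
  have h1 : (2 : ℝ) ^ K ≤ 2 * ℓ := by exact_mod_cast hKℓ.le
  have h2 : ((2 : ℝ)) ^ (Nat.log 2 n) ≤ n := by exact_mod_cast Nat.pow_log_le_self 2 (by omega)
  have h3 : (Nat.log 2 n : ℝ) * Real.log 2 ≤ Real.log n := by
    rw [← Real.log_pow]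
    exact Real.log_le_log (by positivity) h2
  have h4 : (0.69 : ℝ) ≤ Real.log 2 := by linarith [Real.log_two_gt_d9]
  have h5 : (ℓ : ℝ) = Nat.log 2 n + 1 := by rw [hℓ]; push_cast; ring
  have h6 : (0 : ℝ) ≤ (Nat.log 2 n : ℝ) := Nat.cast_nonneg _
  have h7 : (Nat.log 2 n : ℝ) * 0.69 ≤ Real.log n :=
    (mul_le_mul_of_nonneg_left h4 h6).trans h3
  rw [h5] at h1
  linarith

/-- `(j+1) ρ^j` is bounded. -/
theorem bounded_small {ρ : ℝ} (hρ0 : 0 ≤ ρ) (hρ : ρ < 1) : ∃ S : ℝ, 0 < S ∧ ∀ j : ℕ,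
    ((j : ℝ) + 1) * ρ ^ j ≤ S := by
  have h1 : Filter.Tendsto (fun j : ℕ => (j : ℝ) * ρ ^ j) Filter.atTop (nhds 0) :=
    tendsto_self_mul_const_pow_of_lt_one hρ0 hρ
  have h2 : Filter.Tendsto (fun j : ℕ => ρ ^ j) Filter.atTop (nhds 0) :=
    tendsto_pow_atTop_nhds_zero_of_lt_one hρ0 hρ
  have h3 : Filter.Tendsto (fun j : ℕ => ((j : ℝ) + 1) * ρ ^ j) Filter.atTop (nhds 0) := by
    have h4 := h1.add h2
    simp only [add_zero] at h4
    refine h4.congr (fun j => ?_)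
    ring
  obtain ⟨S, hS⟩ := h3.bddAbove_range
  refine ⟨max S 1, by positivity, fun j => ?_⟩
  exact (hS ⟨j, rfl⟩).trans (le_max_left _ _)

/-- The iteration, with a constant which does not depend on `p`. -/
theorem iterateU {α : ℝ} (hα : 0 ≤ α) {lam c V w B N : ℝ} (hlam : 1 ≤ lam)
    (hlame : 3 * lam < (2 : ℝ) ^ α) (hc : 0 < c) (hcN : 3 * N ≤ c) (hN : 0 < N)
    (hVc : 2 * c ≤ 3 * V) (hw : 0 < w) (hB : 1 ≤ B) :
    ∃ C : ℝ, 0 < C ∧ ∀ p : ℝ, 0 < p → p ≤ 1 → ∀ n : ℕ, 2 ≤ n →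
    ∀ P : ℝ → ℝ → ℝ → Prop,
    (∀ r D : ℝ, 0 < r → r ≤ 1 → 10 ^ 6 ≤ D →
      (B / r) * Real.log (B / r) ≤ D → P r (r / V) D) →
    (∀ r k D : ℝ, 0 < r → 3 * r ≤ 1 → 0 < k → V * k ≤ r → 10 ^ 6 ≤ D →
      (n : ℝ) + 1 ≤ Real.exp (D / 10 ^ 5) → 1 / r ≤ Real.exp (D / 10 ^ 5) →
      Real.exp (-(D / 10 ^ 5)) ≤ w * k ^ 2 / r → P r k D →
      P (3 * r) (c * k ^ 2 / r) (lam * D)) →
    ∃ k D : ℝ, 0 < k ∧ k ≤ p / (N * n) ∧ 10 ^ 6 ≤ D ∧ (n : ℝ) + 1 ≤ Real.exp (D / 10 ^ 5) ∧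
      1 / p ≤ Real.exp (D / 10 ^ 5) ∧
      D ≤ C * ((1 + Real.log (1 / p)) / p) * (Real.log n) ^ α ∧ P p k D := by
  have hV0 : 0 < V := by linarith
  have hV : c ≤ 3 * V := by linarith
  have hVc2 : 2 ≤ 3 * V / c := by rw [le_div_iff₀ hc]; exact hVc
  have h2α : 0 < (2 : ℝ) ^ α := by positivity
  obtain ⟨S, hS0, hS⟩ := bounded_small (ρ := lam * 3 / 2 ^ α) (by positivity)
    (by rw [div_lt_one h2α]; linarith)
  obtain ⟨M, hM⟩ : ∃ M : ℝ, M = (c / 3) / (w / c) + 3 * V / c + 10 := ⟨_, rfl⟩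
  have hcw : 0 < (c / 3) / (w / c) := by positivity
  have hM12 : 12 ≤ M := by linarith
  have hlB : 0 ≤ Real.log B := Real.log_nonneg hB
  refine ⟨(B * (Real.log B + 2) + 10 ^ 5 * M) * S * 6 ^ α, by positivity,
    fun p hp hp1 n hn P hbase hstep => ?_⟩
  -- constants
  have hpinv : 1 ≤ 1 / p := by rw [le_div_iff₀ hp]; linarith
  have hlp : 0 ≤ Real.log (1 / p) := Real.log_nonneg hpinv
  set L : ℝ := Real.log (B / p) + 2 with hL
  have hLe : L = Real.log B + Real.log (1 / p) + 2 := by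
    rw [hL, div_eq_mul_one_div B p, Real.log_mul (by linarith) (by positivity)]
  have hLpos : 2 ≤ L := by linarith
  set C₁ : ℝ := B / p * L + 10 ^ 5 * M / p with hC₁
  have hC₁pos : 0 < C₁ := by positivity
  have hC₁le : C₁ ≤ (B * (Real.log B + 2) + 10 ^ 5 * M) * ((1 + Real.log (1 / p)) / p) := by
    have e1 : L ≤ (Real.log B + 2) * (1 + Real.log (1 / p)) := by
      rw [hLe]
      nlinarith
    have e2 : C₁ = (B * L + 10 ^ 5 * M) / p := by rw [hC₁]; ring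
    have e3 : (B * (Real.log B + 2) + 10 ^ 5 * M) * ((1 + Real.log (1 / p)) / p) =
        ((B * (Real.log B + 2) + 10 ^ 5 * M) * (1 + Real.log (1 / p))) / p := by ring
    rw [e2, e3]
    apply div_le_div_of_nonneg_right _ hp.le
    have e4 : B * L ≤ B * ((Real.log B + 2) * (1 + Real.log (1 / p))) :=
      mul_le_mul_of_nonneg_left e1 (by linarith)
    have e5 : 10 ^ 5 * M ≤ 10 ^ 5 * M * (1 + Real.log (1 / p)) :=
      le_mul_of_one_le_right (by positivity) (by linarith)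
    linarith
  obtain ⟨K, hnK, hYlog⟩ := exists_stepsU n hn
  have hnR : (2 : ℝ) ≤ n := by exact_mod_cast hn
  set Y : ℝ := 2 ^ K with hY
  have hY1 : 1 ≤ Y := one_le_pow₀ (by norm_num)
  have hYpos : 0 < Y := by linarith
  have hr₀pos : 0 < p / 3 ^ K := by positivity
  have h3K : (1 : ℝ) ≤ 3 ^ K := one_le_pow₀ (by norm_num)
  have hr₀le : p / 3 ^ K ≤ 1 := (div_le_self hp.le h3K).trans hp1
  have h3Kpos : (0 : ℝ) < 3 ^ K := by positivity
  have hY3 : Y ≤ 3 ^ K := by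
    rw [hY]; exact pow_le_pow_left₀ (by norm_num) (by norm_num) K
  -- the base cost
  set D₀ : ℝ := C₁ * (((K : ℝ) + 1) * 3 ^ K) with hD₀
  have hK0 : (0 : ℝ) ≤ K := Nat.cast_nonneg _
  have hK13 : 3 ^ K ≤ ((K : ℝ) + 1) * 3 ^ K := le_mul_of_one_le_left h3Kpos.le (by linarith)
  have hbD : (B / (p / 3 ^ K)) * Real.log (B / (p / 3 ^ K)) +
      10 ^ 5 * M / p * 3 ^ K ≤ D₀ := by
    have e1 : B / (p / 3 ^ K) = B / p * 3 ^ K := by field_simp
    have e2 : Real.log (B / p * 3 ^ K) = Real.log (B / p) + K * Real.log 3 := by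
      rw [Real.log_mul (by positivity) (by positivity), Real.log_pow]
    have e3 : Real.log 3 ≤ 2 := by
      have := Real.log_le_sub_one_of_pos (show (0 : ℝ) < 3 by norm_num)
      linarith
    have e4 : Real.log (B / p) + K * Real.log 3 ≤ L * ((K : ℝ) + 1) := by
      have h1 : (K : ℝ) * Real.log 3 ≤ K * 2 := mul_le_mul_of_nonneg_left e3 hK0
      have h2 : (K : ℝ) * 2 ≤ K * L := mul_le_mul_of_nonneg_left hLpos hK0
      have h3 : Real.log (B / p) ≤ L := by linarith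
      linarith
    rw [e1, e2, hD₀, hC₁]
    have e5 : B / p * 3 ^ K * (Real.log (B / p) + K * Real.log 3) ≤
        B / p * 3 ^ K * (L * ((K : ℝ) + 1)) :=
      mul_le_mul_of_nonneg_left e4 (by positivity)
    have e6 : 10 ^ 5 * M / p * 3 ^ K ≤ 10 ^ 5 * M / p * (((K : ℝ) + 1) * 3 ^ K) :=
      mul_le_mul_of_nonneg_left hK13 (by positivity)
    calc _ ≤ B / p * 3 ^ K * (L * ((K : ℝ) + 1)) +
          10 ^ 5 * M / p * (((K : ℝ) + 1) * 3 ^ K) := add_le_add e5 e6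
      _ = _ := by ring
  have hlog0 : 0 ≤ (B / (p / 3 ^ K)) * Real.log (B / (p / 3 ^ K)) := by
    apply mul_nonneg (by positivity)
    apply Real.log_nonneg
    rw [le_div_iff₀ hr₀pos]
    linarith
  -- `Z = 3^K/p`
  obtain ⟨Z, hZ⟩ : ∃ Z : ℝ, Z = 3 ^ K / p := ⟨_, rfl⟩
  have hZY : Y ≤ Z := by
    rw [hZ, le_div_iff₀ hp]
    exact (mul_le_of_le_one_right hYpos.le hp1).trans hY3
  have hZ1 : 1 ≤ Z := hY1.trans hZY
  have hDZ : 10 ^ 5 * (M * Z) ≤ D₀ := by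
    have : 10 ^ 5 * (M * Z) = 10 ^ 5 * M / p * 3 ^ K := by rw [hZ]; ring
    rw [this]; linarith
  have hDZ' : M * Z ≤ D₀ / 10 ^ 5 := by
    rw [le_div_iff₀ (by norm_num)]; linarith
  have hMZ : 12 * Z ≤ M * Z := mul_le_mul_of_nonneg_right hM12 (by linarith)
  have h1D : 10 ^ 6 ≤ D₀ := by linarith
  have hn2 : (n : ℝ) + 1 ≤ 2 ^ (2 ^ K) := by exact_mod_cast hnK
  have hnD : (n : ℝ) + 1 ≤ Real.exp (D₀ / 10 ^ 5) := by
    have h2 : (2 : ℝ) ^ (2 ^ K) ≤ (3 * V / c) ^ (2 ^ K) :=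
      pow_le_pow_left₀ (by norm_num) hVc2 _
    refine hn2.trans (h2.trans ((big_pow_le hc hV0 K hY).trans (Real.exp_le_exp.mpr ?_)))
    have e1 : 3 * V / c * Y ≤ 3 * V / c * Z := mul_le_mul_of_nonneg_left hZY (by linarith)
    have e2 : 3 * V / c * Z ≤ M * Z := mul_le_mul_of_nonneg_right (by linarith) (by linarith)
    linarith
  have hinv : 1 / (p / 3 ^ K) = Z := by rw [hZ, one_div_div]
  have hZexp : Z ≤ Real.exp Z := by
    have := Real.add_one_le_exp Z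
    linarith
  have hrD : 1 / (p / 3 ^ K) ≤ Real.exp (D₀ / 10 ^ 5) := by
    rw [hinv]
    exact hZexp.trans (Real.exp_le_exp.mpr (by linarith))
  have hkD : Real.exp (-(D₀ / 10 ^ 5)) ≤ w / c * (p / 3 ^ K * vv c V K) :=
    floor_bound hc hV0 hp (by positivity) hZ hZ1 hY hZY (by linarith) hDZ'
  have hbD' : (B / (p / 3 ^ K)) * Real.log (B / (p / 3 ^ K)) ≤ D₀ := by
    have : 0 ≤ 10 ^ 5 * M / p * 3 ^ K := by positivity
    linarith
  have hmain := iterateG_core hlam hc hV0 hV hw n p hp hp1 K P hbase hstep D₀ h1D hnD hbD' hrD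
    hkD K le_rfl
  rw [Nat.sub_self, pow_zero, div_one] at hmain
  have hDD : D₀ ≤ lam ^ K * D₀ := by
    have h1 : (1 : ℝ) ≤ lam ^ K := one_le_pow₀ hlam
    exact le_mul_of_one_le_left (by linarith) h1
  have hexp : Real.exp (D₀ / 10 ^ 5) ≤ Real.exp (lam ^ K * D₀ / 10 ^ 5) :=
    Real.exp_le_exp.mpr (div_le_div_of_nonneg_right hDD (by norm_num))
  refine ⟨p * vv c V K, lam ^ K * D₀, ?_, ?_, h1D.trans hDD, hnD.trans hexp, ?_, ?_, hmain⟩
  · have := vv_pos hc hV0 K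
    positivity
  · -- `k ≤ p / (N n)`
    have h1 : N * n ≤ c / 3 * (3 * V / c) ^ (2 ^ K) := by
      have h2 : (2 : ℝ) ^ (2 ^ K) ≤ (3 * V / c) ^ (2 ^ K) :=
        pow_le_pow_left₀ (by norm_num) hVc2 _
      have h3 : N ≤ c / 3 := by linarith
      exact mul_le_mul h3 (by linarith) (by linarith) (by positivity)
    rw [vv_eq hc hV0, div_eq_mul_one_div p]
    apply mul_le_mul_of_nonneg_left _ hp.le
    exact one_div_le_one_div_of_le (by positivity) h1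
  · refine le_trans ?_ (hrD.trans hexp)
    exact one_div_le_one_div_of_le hr₀pos (div_le_self hp.le h3K)
  · -- the cost
    have h2 : Y ^ α = ((2 : ℝ) ^ α) ^ K := by
      rw [hY, Real.rpow_pow_comm (by norm_num)]
    have h3 : (lam * 3 / 2 ^ α : ℝ) ^ K * ((2 : ℝ) ^ α) ^ K = lam ^ K * 3 ^ K := by
      rw [← mul_pow, ← mul_pow]
      congr 1
      field_simp
    have h1 : lam ^ K * D₀ = C₁ * ((((K : ℝ) + 1) * (lam * 3 / 2 ^ α) ^ K) * Y ^ α) := by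
      rw [h2, hD₀]
      calc lam ^ K * (C₁ * (((K : ℝ) + 1) * 3 ^ K)) = C₁ * ((K : ℝ) + 1) * (lam ^ K * 3 ^ K) := by
            ring
        _ = C₁ * ((K : ℝ) + 1) * ((lam * 3 / 2 ^ α : ℝ) ^ K * ((2 : ℝ) ^ α) ^ K) := by rw [h3]
        _ = _ := by ring
    have h7 : 0 ≤ Real.log n := Real.log_nonneg (by linarith)
    have h4 : Y ^ α ≤ 6 ^ α * (Real.log n) ^ α := by
      rw [← Real.mul_rpow (by norm_num) h7]
      exact Real.rpow_le_rpow hYpos.le hYlog hα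
    have h5 := hS K
    have h6 : 0 ≤ ((K : ℝ) + 1) * (lam * 3 / 2 ^ α) ^ K := by positivity
    have h8 : (((K : ℝ) + 1) * (lam * 3 / 2 ^ α) ^ K) * Y ^ α ≤
        S * (6 ^ α * (Real.log n) ^ α) :=
      mul_le_mul h5 h4 (by positivity) hS0.le
    rw [h1]
    calc C₁ * ((((K : ℝ) + 1) * (lam * 3 / 2 ^ α) ^ K) * Y ^ α) ≤
          ((B * (Real.log B + 2) + 10 ^ 5 * M) * ((1 + Real.log (1 / p)) / p)) *
            (S * (6 ^ α * (Real.log n) ^ α)) :=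
          mul_le_mul hC₁le h8 (by positivity) (by positivity)
      _ = _ := by ring

end Vale.Agent.P321.R3.H94
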