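import Vale.Agent.P321.R3.H614.FinalG
import Vale.Agent.P321.R3.H94.IterateU

/-! # Final assembly, uniform in the deletion probability -/

namespace Vale.Agent.P321.R3.H94

open Complex Finset Vale.Agent.P321.UB Vale.Agent.P321.R2.H613 Vale.Agent.P321.R3.H614.G
open scoped unitInterval ENNReal

/-- Final numerics. -/
theorem numericsU {α : ℝ} (hα : 1 ≤ α) {C X : ℝ} (hC : 0 < C) (hX : 1 ≤ X) {n : ℕ} (hn : 2 ≤ n) :
    (⌈(16 / (Real.exp (-(2 * (C * X * (Real.log n) ^ α)))) ^ 2) * ((n : ℝ) + 2)⌉₊ : ℕ) ≤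
      ⌊Real.exp ((4 * C + 7 * 0.69 ^ (1 - α)) * X * (Real.log n) ^ α)⌋₊ := by
  set t : ℝ := Real.log n with ht
  have hnR : (2 : ℝ) ≤ n := by exact_mod_cast hn
  have hn1 : (1 : ℝ) ≤ n := by linarith
  have hnpos : (0 : ℝ) < n := by linarith
  have hnexp : (n : ℝ) = Real.exp t := (Real.exp_log hnpos).symm
  have ht1 : 0.69 ≤ t := by
    have h1 : Real.log 2 ≤ Real.log n := Real.log_le_log (by norm_num) hnR
    linarith [Real.log_two_gt_d9]
  have ht0 : 0 < t := by linarith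
  have hta : 0 < t ^ α := by positivity
  set y : ℝ := C * X * t ^ α with hy
  have hy0 : 0 ≤ y := by positivity
  have h2 : 16 / (Real.exp (-(2 * y))) ^ 2 = 16 * Real.exp (4 * y) := by
    rw [← Real.exp_nat_mul, div_eq_mul_inv, ← Real.exp_neg]
    congr 2; push_cast; ring
  rw [h2]
  have hE : (1 : ℝ) ≤ Real.exp (4 * y) := Real.one_le_exp (by linarith)
  -- the lower order terms
  have hlow : 4 + t ≤ 7 * 0.69 ^ (1 - α) * X * t ^ α := by
    have g1 : t ^ (1 - α) ≤ (0.69 : ℝ) ^ (1 - α) :=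
      Real.rpow_le_rpow_of_nonpos (by norm_num) ht1 (by linarith)
    have g2 : t = t ^ (1 - α) * t ^ α := by
      rw [← Real.rpow_add ht0, sub_add_cancel, Real.rpow_one]
    have g3 : t ≤ 0.69 ^ (1 - α) * t ^ α := by
      calc t = t ^ (1 - α) * t ^ α := g2
        _ ≤ _ := mul_le_mul_of_nonneg_right g1 hta.le
    have g4 : (0 : ℝ) ≤ 0.69 ^ (1 - α) * t ^ α := by positivity
    have g5 : 7 * (0.69 ^ (1 - α) * t ^ α) ≤ 7 * (0.69 ^ (1 - α) * t ^ α) * X :=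
      le_mul_of_one_le_right (by linarith) hX
    have g6 : 7 * (0.69 ^ (1 - α) * t ^ α) * X = 7 * 0.69 ^ (1 - α) * X * t ^ α := by ring
    linarith
  have h1 : 16 * Real.exp (4 * y) * ((n : ℝ) + 2) + 1 ≤
      Real.exp ((4 * C + 7 * 0.69 ^ (1 - α)) * X * t ^ α) := by
    have h3 : (n : ℝ) + 2 ≤ 3 * n := by linarith
    have h4 : 16 * Real.exp (4 * y) * ((n : ℝ) + 2) + 1 ≤ 49 * Real.exp (4 * y) * n := by
      have h5 : 16 * Real.exp (4 * y) * ((n : ℝ) + 2) ≤ 16 * Real.exp (4 * y) * (3 * n) :=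
        mul_le_mul_of_nonneg_left h3 (by positivity)
      have h6 : (1 : ℝ) ≤ Real.exp (4 * y) * n := by
        calc (1 : ℝ) = 1 * 1 := (mul_one 1).symm
          _ ≤ Real.exp (4 * y) * n := mul_le_mul hE hn1 zero_le_one (Real.exp_pos _).le
      linarith
    have h49 : (49 : ℝ) ≤ Real.exp 4 := by
      have h8 : Real.exp 4 = (Real.exp 1) ^ 4 := by
        rw [← Real.exp_nat_mul]; norm_num
      rw [h8]
      have h9 : (2.7 : ℝ) ^ 4 ≤ (Real.exp 1) ^ 4 :=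
        pow_le_pow_left₀ (by norm_num) (by linarith [Real.exp_one_gt_d9]) 4
      refine le_trans ?_ h9
      norm_num
    refine h4.trans ?_
    rw [hnexp]
    calc 49 * Real.exp (4 * y) * Real.exp t ≤ Real.exp 4 * Real.exp (4 * y) * Real.exp t := by
          gcongr
      _ = Real.exp (4 + 4 * y + t) := by rw [← Real.exp_add, ← Real.exp_add]
      _ ≤ Real.exp ((4 * C + 7 * 0.69 ^ (1 - α)) * X * t ^ α) :=
          Real.exp_le_exp.2 (by
            have g7 : (4 * C + 7 * 0.69 ^ (1 - α)) * X * t ^ α =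
                4 * y + 7 * 0.69 ^ (1 - α) * X * t ^ α := by rw [hy]; ring
            linarith)
  apply Nat.le_floor
  have h3 := (Nat.ceil_lt_add_one
    (show 0 ≤ 16 * Real.exp (4 * y) * ((n : ℝ) + 2) by positivity)).le
  exact h3.trans h1

/-- Parametric quasi-polynomial upper bound, uniform in `q`: the base case and the step of the
iteration, for an abstract state, are hypotheses. -/
theorem finalU {α : ℝ} (hα : 1 ≤ α) {lam c V w B N β : ℝ} (hlam : 1 ≤ lam)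
    (hlame : 3 * lam < (2 : ℝ) ^ α) (hcN : 3 * N ≤ c) (hN1 : 1000 ≤ N) (hβ : 0 ≤ β)
    (hN2 : 4 * (1 + β) ≤ N) (hVc : 2 * c ≤ 3 * V) (hw : 0 < w) (hB : 1 ≤ B)
    (State : List Bool → List Bool → ℕ → ℝ → ℝ → ℝ → Prop)
    (hbase : ∀ (x x' : List Bool) (i1 : ℕ), x.length = x'.length → i1 ≤ x.length →
      (∀ r : ℝ, 0 ≤ r → ‖sq x (tau0 r) i1 - sq x' (tau0 r) i1‖ = r) →
      ∀ r D : ℝ, 0 < r → r ≤ 1 → 10 ^ 6 ≤ D → (B / r) * Real.log (B / r) ≤ D →
        State x x' i1 r (r / V) D)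
    (hstep : ∀ (x x' : List Bool) (i1 : ℕ), x.length = x'.length → i1 ≤ x.length →
      (∀ τ, ∀ i < i1, sq x τ i = sq x' τ i) →
      ∀ r κ D : ℝ, 0 < r → 3 * r ≤ 1 → 0 < κ → V * κ ≤ r → 10 ^ 6 ≤ D →
        (x.length : ℝ) + 1 ≤ Real.exp (D / 10 ^ 5) → 1 / r ≤ Real.exp (D / 10 ^ 5) →
        Real.exp (-(D / 10 ^ 5)) ≤ w * κ ^ 2 / r → State x x' i1 r κ D →
        State x x' i1 (3 * r) (c * κ ^ 2 / r) (lam * D))
    (hgood : ∀ (x x' : List Bool) (i1 : ℕ) (r κ D : ℝ), 0 < r → 0 < κ → 10 ^ 6 ≤ D →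
      State x x' i1 r κ D →
      ∃ τ : List Bool → ℂ, IsTest x.length r 1 τ ∧ ∃ s : ℂ, s.re = κ ∧ |s.im| ≤ β * κ ∧
        Real.exp (-D) ≤ ‖NN x.length i1 (sq x τ) (sq x' τ) s‖) :
    ∃ C : ℝ, 0 < C ∧ ∀ q : I, (q : ℝ) < 1 → ∀ n : ℕ, 2 ≤ n →
      T q n ≤ (⌊Real.exp (C * ((1 + Real.log (1 / (1 - q))) / (1 - q)) *
        (Real.log n) ^ α)⌋₊ : ℕ∞) := by
  obtain ⟨C, hC, hit⟩ := iterateU (by linarith) hlam hlame (by linarith) hcN (by linarith) hVc hw hB
  refine ⟨4 * C + 7 * 0.69 ^ (1 - α), by positivity, fun q hq n hn => ?_⟩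
  have hp : 0 < 1 - (q : ℝ) := by linarith
  have hp1 : 1 - (q : ℝ) ≤ 1 := by linarith [q.2.1]
  set p : ℝ := 1 - (q : ℝ) with hpdef
  have hnR : (2 : ℝ) ≤ n := by exact_mod_cast hn
  have hpinv : 1 ≤ 1 / p := by rw [le_div_iff₀ hp]; linarith
  have hlp : 0 ≤ Real.log (1 / p) := Real.log_nonneg hpinv
  have hX : 1 ≤ (1 + Real.log (1 / p)) / p := by
    rw [le_div_iff₀ hp]; linarith
  have hlog : 0 < Real.log n := Real.log_pos (by linarith)
  have key : T q n ≤ (⌈(16 / (Real.exp (-(2 * (C * ((1 + Real.log (1 / p)) / p) *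
      (Real.log n) ^ α)))) ^ 2) * ((n : ℝ) + 2)⌉₊ : ℕ) := by
    refine T_le_of_gap q n (Real.exp_pos _) (Real.exp_le_one_iff.2 ?_) ?_
    · have : 0 ≤ C * ((1 + Real.log (1 / p)) / p) * (Real.log n) ^ α := by positivity
      linarith
    intro x x' hxx
    have hlx : (List.ofFn x).length = n := List.length_ofFn
    have hlx' : (List.ofFn x').length = n := List.length_ofFn
    have hll : (List.ofFn x).length = (List.ofFn x').length := by rw [hlx, hlx']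
    have hne : List.ofFn x ≠ List.ofFn x' := fun h => hxx (List.ofFn_injective h)
    obtain ⟨i1, h1, h2, h3, h4⟩ := exists_first_diff hll hne
    obtain ⟨κ, D, hκ, hκn, hD, hnl, hpl, hlD, hG⟩ :=
      hit p hp hp1 n hn (fun r κ D => State (List.ofFn x) (List.ofFn x') i1 r κ D)
        (fun r D hr hr1 hD1 hl2 => hbase _ _ _ hll h2 h4 r D hr hr1 hD1 hl2)
        (fun r κ D hr hr3 hκ hκr hD hnl hrl hκl hG =>
          hstep _ _ _ hll h2 h3 r κ D hr hr3 hκ hκr hD (by rw [hlx]; exact hnl) hrl hκl hG)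
    obtain ⟨Φ, hΦ, hgap⟩ := gapG hll h2 h1 h3 hp hp1 hκ hβ hN1 hN2 (by rw [hlx]; exact hκn) hD
      (by rw [hlx]; exact hnl) hpl (hgood _ _ _ _ _ _ hp hκ hD hG)
    refine ⟨Φ, fun u hu => hΦ u (by rw [hlx]; exact hu), ?_⟩
    exact le_trans (Real.exp_le_exp.2 (by linarith)) hgap
  refine key.trans ?_
  exact_mod_cast numericsU hα hC hX hn

end Vale.Agent.P321.R3.H94
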