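import Vale.Agent.P321.R3.H94.FinalU
import Vale.Agent.P321.R3.H614.Final5
import Vale.Agent.P321.R3.H101.Step5

/-! # Quasi-polynomial upper bound with exponent `4.991`, uniform in the deletion probability -/

namespace Vale.Agent.P321.R3.H94

open Complex Finset Vale.Agent.P321.UB Vale.Agent.P321.R2.H613 Vale.Agent.P321.R3.H175
open scoped unitInterval ENNReal

theorem growth_lt : 3 * (10.6 : ℝ) < (2 : ℝ) ^ (4.991 : ℝ) := by
  have h1 : ((2 : ℝ) ^ (4.991 : ℝ)) ^ (1000 : ℕ) = (2 : ℝ) ^ (4991 : ℕ) := by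
    rw [← Real.rpow_natCast, ← Real.rpow_mul (by norm_num), ← Real.rpow_natCast]
    norm_num
  have h2 : ((3 * (10.6 : ℝ)) ^ (100 : ℕ)) ^ (10 : ℕ) < ((2 : ℝ) ^ (217 : ℕ)) ^ (23 : ℕ) := by
    norm_num
  rw [← pow_mul, ← pow_mul] at h2
  have h3 : (3 * (10.6 : ℝ)) ^ (1000 : ℕ) < (2 : ℝ) ^ (4991 : ℕ) := h2
  rw [← h1] at h3
  exact lt_of_pow_lt_pow_left₀ 1000 (by positivity) h3

/-- The upper bound for all `n ≥ 2` and all `q`, with one absolute constant. -/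
theorem exp_log_uni : ∃ C : ℝ, 0 < C ∧ ∀ q : I, (q : ℝ) < 1 → ∀ n : ℕ, 2 ≤ n →
    T q n ≤ (⌊Real.exp (C * ((1 + Real.log (1 / (1 - q))) / (1 - q)) *
      (Real.log n) ^ (4.991 : ℝ))⌋₊ : ℕ∞) := by
  refine finalU (α := 4.991) (lam := 10.6) (c := 3 * 10 ^ 10) (V := 10 ^ 16) (w := 10 ^ 5)
    (B := 10 ^ 18) (N := 1000) (β := 5) (by norm_num) (by norm_num) growth_lt (by norm_num)
    (by norm_num) (by norm_num) (by norm_num) (by norm_num) (by norm_num) (by norm_num)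
    Good5 ?_ ?_ ?_
  · intro x x' i1 _ hi hd r D hr hr1 _ hD
    exact good_base5 hi hd hr hr1 hD
  · intro x x' i1 hl hi heq r κ D hr hr3 hκ hκr hD hn hrl hκl h
    exact good_step5_of Vale.Agent.P321.R3.H101.step5 hl hi heq hr hr3 hκ hκr hD hn hrl hκl h
  · rintro x x' i1 r κ D _ _ hD ⟨τ, -, hτ, s, hsre, hsim, hNN⟩
    refine ⟨τ, hτ, s, hsre, hsim, ?_⟩
    refine le_trans (Real.exp_le_exp.2 (neg_le_neg ?_)) hNN
    exact mul_le_of_le_one_right (by linarith) (min_le_left _ _)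

end Vale.Agent.P321.R3.H94
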